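import Mathlib

namespace Vale.Agent.P262

open scoped BigOperators RealInnerProductSpace
open Module

section General

set_option linter.unusedSectionVars false

variable {E : Type*} [NormedAddCommGroup E] [InnerProductSpace ℝ E]

/-- Starting from the partial sum `P`, whatever signs are chosen for `v 0, v 1, ...`,
some partial sum has squared norm at least `ρ`. -/
def Forces : (n : ℕ) → (Fin n → E) → E → ℝ → Prop
  | 0, _, P, ρ => ρ ≤ ‖P‖ ^ 2
  | n + 1, v, P, ρ => ρ ≤ ‖P‖ ^ 2 ∨
      (Forces n (Fin.tail v) (P + v 0) ρ ∧ Forces n (Fin.tail v) (P - v 0) ρ)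

/-- Starting from the partial sum `P`, some choice of signs keeps all partial sums
of squared norm at most `ρ`. -/
def Safe : (n : ℕ) → (Fin n → E) → E → ℝ → Prop
  | 0, _, P, ρ => ‖P‖ ^ 2 ≤ ρ
  | n + 1, v, P, ρ => ‖P‖ ^ 2 ≤ ρ ∧
      (Safe n (Fin.tail v) (P + v 0) ρ ∨ Safe n (Fin.tail v) (P - v 0) ρ)

lemma Forces.of_le {n : ℕ} {v : Fin n → E} {P : E} {ρ : ℝ} (h : ρ ≤ ‖P‖ ^ 2) :
    Forces n v P ρ := by
  cases n with
  | zero => exact h
  | succ n => exact Or.inl h

lemma Forces.neg : ∀ {n : ℕ} {v : Fin n → E} {P : E} {ρ : ℝ},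
    Forces n v P ρ → Forces n v (-P) ρ := by
  intro n
  induction n with
  | zero =>
    intro v P ρ h
    simpa [Forces] using h
  | succ n ih =>
    intro v P ρ h
    rcases h with h | ⟨h1, h2⟩
    · left; simpa using h
    · right
      refine ⟨?_, ?_⟩
      · have e : -P + v 0 = -(P - v 0) := by abel
        rw [e]; exact ih h2
      · have e : -P - v 0 = -(P + v 0) := by abel
        rw [e]; exact ih h1

lemma Forces.add_orth {u : E} : ∀ {n : ℕ} {v : Fin n → E} {P : E} {ρ : ℝ},
    ⟪u, P⟫ = 0 → (∀ i, ⟪u, v i⟫ = 0) → Forces n v P ρ → Forces n v (P + u) (ρ + ‖u‖ ^ 2) := by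
  intro n
  induction n with
  | zero =>
    intro v P ρ hu _ h
    have h' : ρ ≤ ‖P‖ ^ 2 := h
    show ρ + ‖u‖ ^ 2 ≤ ‖P + u‖ ^ 2
    rw [norm_add_sq_real, real_inner_comm, hu]
    linarith
  | succ n ih =>
    intro v P ρ hu hv h
    rcases h with h | ⟨h1, h2⟩
    · left
      rw [norm_add_sq_real, real_inner_comm, hu]
      linarith
    · right
      refine ⟨?_, ?_⟩
      · have := ih (P := P + v 0) (by rw [inner_add_right, hu, hv 0, add_zero])
          (fun i => hv i.succ) h1
        rwa [add_right_comm] at this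
      · have := ih (P := P - v 0) (by rw [inner_sub_right, hu, hv 0, sub_zero])
          (fun i => hv i.succ) h2
        rwa [sub_add_eq_add_sub] at this

lemma Forces.map {F : Type*} [NormedAddCommGroup F] [InnerProductSpace ℝ F] (φ : F →ₗᵢ[ℝ] E) :
    ∀ {n : ℕ} {v : Fin n → F} {P : F} {ρ : ℝ},
    Forces n v P ρ → Forces n (fun i => φ (v i)) (φ P) ρ := by
  intro n
  induction n with
  | zero =>
    intro v P ρ h
    have h' : ρ ≤ ‖P‖ ^ 2 := h
    show ρ ≤ ‖φ P‖ ^ 2
    rwa [φ.norm_map]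
  | succ n ih =>
    intro v P ρ h
    rcases h with h | ⟨h1, h2⟩
    · left; rwa [φ.norm_map]
    · right
      refine ⟨?_, ?_⟩
      · have := ih h1
        rwa [map_add] at this
      · have := ih h2
        rwa [map_sub] at this

lemma sum_filter_succ {n : ℕ} (f : Fin (n + 1) → E) (k : ℕ) :
    ∑ i ∈ Finset.univ.filter (fun i : Fin (n + 1) => (i : ℕ) < k + 1), f i =
      f 0 + ∑ j ∈ Finset.univ.filter (fun j : Fin n => (j : ℕ) < k), f j.succ := by
  rw [Finset.sum_filter, Finset.sum_filter, Fin.sum_univ_succ]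
  simp

lemma Forces.exists_index : ∀ {n : ℕ} {v : Fin n → E} {P : E} {ρ : ℝ},
    Forces n v P ρ → ∀ ε : Fin n → ℝ, (∀ i, ε i = 1 ∨ ε i = -1) →
    ∃ k : ℕ, k ≤ n ∧
      ρ ≤ ‖P + ∑ i ∈ Finset.univ.filter (fun i : Fin n => (i : ℕ) < k), ε i • v i‖ ^ 2 := by
  intro n
  induction n with
  | zero =>
    intro v P ρ h ε _
    refine ⟨0, le_rfl, ?_⟩
    simpa [Forces] using h
  | succ n ih =>
    intro v P ρ h ε hε
    rcases h with h | ⟨h1, h2⟩
    · refine ⟨0, Nat.zero_le _, ?_⟩
      simpa using h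
    · rcases hε 0 with h0 | h0
      · obtain ⟨k, hk, hk'⟩ := ih h1 (fun j => ε j.succ) (fun j => hε j.succ)
        refine ⟨k + 1, Nat.succ_le_succ hk, ?_⟩
        rw [sum_filter_succ, h0, one_smul, ← add_assoc]
        exact hk'
      · obtain ⟨k, hk, hk'⟩ := ih h2 (fun j => ε j.succ) (fun j => hε j.succ)
        refine ⟨k + 1, Nat.succ_le_succ hk, ?_⟩
        rw [sum_filter_succ, h0, neg_one_smul, ← add_assoc, ← sub_eq_add_neg]
        exact hk'

lemma Safe.exists_signs : ∀ {n : ℕ} {v : Fin n → E} {P : E} {ρ : ℝ},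
    Safe n v P ρ → ∃ ε : Fin n → ℝ, (∀ i, ε i = 1 ∨ ε i = -1) ∧
    ∀ k : ℕ, k ≤ n →
      ‖P + ∑ i ∈ Finset.univ.filter (fun i : Fin n => (i : ℕ) < k), ε i • v i‖ ^ 2 ≤ ρ := by
  intro n
  induction n with
  | zero =>
    intro v P ρ h
    refine ⟨fun _ => 1, fun _ => Or.inl rfl, fun k _ => ?_⟩
    simpa [Safe] using h
  | succ n ih =>
    intro v P ρ h
    obtain ⟨hP, h1 | h1⟩ := h
    · obtain ⟨ε, hε, hk⟩ := ih h1
      refine ⟨Fin.cons 1 ε, ?_, ?_⟩
      · intro i
        refine Fin.cases ?_ ?_ i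
        · left; rfl
        · intro j; simpa using hε j
      · intro k hkn
        cases k with
        | zero => simpa using hP
        | succ k =>
          rw [sum_filter_succ]
          simp only [Fin.cons_zero, Fin.cons_succ, one_smul]
          rw [← add_assoc]
          exact hk k (Nat.le_of_succ_le_succ hkn)
    · obtain ⟨ε, hε, hk⟩ := ih h1
      refine ⟨Fin.cons (-1) ε, ?_, ?_⟩
      · intro i
        refine Fin.cases ?_ ?_ i
        · right; rfl
        · intro j; simpa using hε j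
      · intro k hkn
        cases k with
        | zero => simpa using hP
        | succ k =>
          rw [sum_filter_succ]
          simp only [Fin.cons_zero, Fin.cons_succ, neg_one_smul]
          rw [← add_assoc, ← sub_eq_add_neg]
          exact hk k (Nat.le_of_succ_le_succ hkn)

end General

end Vale.Agent.P262
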