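import Vale.Agent.P262.Basic

namespace Vale.Agent.P262

open scoped BigOperators RealInnerProductSpace
open Module

section Kill

variable {E : Type*} [NormedAddCommGroup E] [InnerProductSpace ℝ E]

lemma exists_unit_inner (h2 : ∀ P : E, ∃ n : E, ‖n‖ = 1 ∧ ⟪P, n⟫ = 0) (P : E) (t : ℝ)
    (hP : 0 < ‖P‖ ^ 2) (ht : t ^ 2 ≤ ‖P‖ ^ 2) : ∃ v : E, ‖v‖ = 1 ∧ ⟪P, v⟫ = t := by
  obtain ⟨n, hn, hPn⟩ := h2 P
  set a := ‖P‖ ^ 2 with ha
  have hs : 0 ≤ 1 - t ^ 2 / a := by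
    rw [sub_nonneg, div_le_one hP]; exact ht
  refine ⟨(t / a) • P + Real.sqrt (1 - t ^ 2 / a) • n, ?_, ?_⟩
  · have h : ‖(t / a) • P + Real.sqrt (1 - t ^ 2 / a) • n‖ ^ 2 = 1 := by
      rw [norm_add_sq_real, norm_smul, norm_smul, inner_smul_left, inner_smul_right, hPn, hn,
        mul_pow, mul_pow, ← ha]
      simp only [Real.norm_eq_abs, sq_abs, Real.sq_sqrt hs]
      field_simp
      ring
    have h0 : 0 ≤ ‖(t / a) • P + Real.sqrt (1 - t ^ 2 / a) • n‖ := norm_nonneg _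
    nlinarith
  · rw [inner_add_right, inner_smul_right, inner_smul_right, hPn, real_inner_self_eq_norm_sq, ← ha]
    field_simp
    ring

lemma kill (h2 : ∀ P : E, ∃ n : E, ‖n‖ = 1 ∧ ⟪P, n⟫ = 0) (ρ : ℝ) :
    ∀ (n : ℕ) (P : E), 1 ≤ ‖P‖ ^ 2 → 0 < ‖P‖ ^ 2 - ρ + 2 → 1 ≤ (‖P‖ ^ 2 - ρ + 2) * 2 ^ n →
    ∃ v : Fin (n + 1) → E, (∀ i, ‖v i‖ ≤ 1) ∧ Forces (n + 1) v P ρ := by
  have orthstep : ∀ (n : ℕ) (P : E), 1 ≤ ‖P‖ ^ 2 - ρ + 2 →
      ∃ v : Fin (n + 1) → E, (∀ i, ‖v i‖ ≤ 1) ∧ Forces (n + 1) v P ρ := by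
    intro n P hb
    obtain ⟨w, hw, hPw⟩ := h2 P
    refine ⟨Fin.cons w (fun _ => 0), ?_, ?_⟩
    · intro i
      refine Fin.cases ?_ ?_ i
      · simp [hw]
      · intro j; simp
    · right
      refine ⟨Forces.of_le ?_, Forces.of_le ?_⟩
      · simp only [Fin.cons_zero]
        rw [norm_add_sq_real, hPw, hw]; linarith
      · simp only [Fin.cons_zero]
        rw [norm_sub_sq_real, hPw, hw]; linarith
  intro n
  induction n with
  | zero =>
    intro P _ _ h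
    exact orthstep 0 P (by simpa using h)
  | succ n ih =>
    intro P ha hb h
    by_cases hb1 : 1 ≤ ‖P‖ ^ 2 - ρ + 2
    · exact orthstep (n + 1) P hb1
    · push Not at hb1
      set a := ‖P‖ ^ 2 with hadef
      set b := a - ρ + 2 with hbdef
      obtain ⟨w, hw, hPw⟩ := exists_unit_inner h2 P ((1 - b) / 2) (by linarith) (by
        rw [← hadef]; nlinarith)
      have hplus : ‖P + w‖ ^ 2 = ρ := by
        rw [norm_add_sq_real, hPw, hw, ← hadef]; simp only [hbdef]; ring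
      have hminus : ‖P - w‖ ^ 2 = a + b := by
        rw [norm_sub_sq_real, hPw, hw, ← hadef]; ring
      obtain ⟨v, hv, hF⟩ := ih (P - w) (by rw [hminus]; linarith)
        (by rw [hminus]; simp only [hbdef] at hb ⊢; linarith)
        (by rw [hminus]
            have : a + b - ρ + 2 = b * 2 := by simp only [hbdef]; ring
            rw [this]
            calc (1 : ℝ) ≤ b * 2 ^ (n + 1) := h
              _ = b * 2 * 2 ^ n := by ring)
      refine ⟨Fin.cons w v, ?_, ?_⟩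
      · intro i
        refine Fin.cases ?_ ?_ i
        · simp [hw]
        · intro j; simpa using hv j
      · right
        refine ⟨Forces.of_le ?_, ?_⟩
        · simp only [Fin.cons_zero]; rw [hplus]
        · simpa using hF

lemma planar (h2 : ∀ P : E, ∃ n : E, ‖n‖ = 1 ∧ ⟪P, n⟫ = 0) (n : ℕ) :
    ∃ v : Fin (n + 2) → E, (∀ i, ‖v i‖ ≤ 1) ∧ Forces (n + 2) v 0 (3 - (1 / 2) ^ n) := by
  obtain ⟨u, hu, -⟩ := h2 0
  have hpow : ((1 : ℝ) / 2) ^ n * 2 ^ n = 1 := by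
    rw [← mul_pow]; norm_num
  have hpos : (0 : ℝ) < (1 / 2) ^ n := by positivity
  obtain ⟨v, hv, hF⟩ := kill h2 (3 - (1 / 2) ^ n) n u (by rw [hu]; norm_num)
    (by rw [hu]; linarith) (by
      rw [hu]
      have : ((1 : ℝ) ^ 2 - (3 - (1 / 2) ^ n) + 2) = (1 / 2) ^ n := by ring
      rw [this, hpow])
  refine ⟨Fin.cons u v, ?_, ?_⟩
  · intro i
    refine Fin.cases ?_ ?_ i
    · simp [hu]
    · intro j; simpa using hv j
  · right
    refine ⟨?_, ?_⟩
    · simpa using hF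
    · have := hF.neg
      simpa using this

end Kill

lemma exists_unit_orth (E : Type) [NormedAddCommGroup E] [InnerProductSpace ℝ E]
    [FiniteDimensional ℝ E] (h : 2 ≤ finrank ℝ E) (P : E) : ∃ n : E, ‖n‖ = 1 ∧ ⟪P, n⟫ = 0 := by
  have h1 : finrank ℝ (ℝ ∙ P) + finrank ℝ (ℝ ∙ P)ᗮ = finrank ℝ E :=
    Submodule.finrank_add_finrank_orthogonal _
  have h3 : finrank ℝ (ℝ ∙ P) ≤ 1 := by
    have := finrank_span_le_card (R := ℝ) ({P} : Set E)
    simpa using this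
  have h4 : 0 < finrank ℝ (ℝ ∙ P)ᗮ := by omega
  obtain ⟨x, hx⟩ := finrank_pos_iff_exists_ne_zero.mp h4
  have hx' : (x : E) ≠ 0 := by simpa using hx
  have hxP : ⟪P, (x : E)⟫ = 0 := Submodule.mem_orthogonal_singleton_iff_inner_right.mp x.2
  refine ⟨(‖(x : E)‖)⁻¹ • (x : E), ?_, ?_⟩
  · rw [norm_smul, norm_inv, norm_norm, inv_mul_cancel₀ (norm_ne_zero_iff.mpr hx')]
  · rw [inner_smul_right, hxP, mul_zero]

theorem forces_main : ∀ (d : ℕ) (E : Type) [NormedAddCommGroup E] [InnerProductSpace ℝ E]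
    [FiniteDimensional ℝ E], finrank ℝ E = d + 2 → ∀ n : ℕ,
    ∃ v : Fin (n + 2 + d) → E, (∀ i, ‖v i‖ ≤ 1) ∧
      Forces (n + 2 + d) v 0 ((d : ℝ) + 3 - (1 / 2) ^ n) := by
  intro d
  induction d with
  | zero =>
    intro E _ _ _ h n
    obtain ⟨v, hv, hF⟩ := planar (exists_unit_orth E (by omega)) n
    refine ⟨v, hv, ?_⟩
    simpa using hF
  | succ d ih =>
    intro E _ _ _ h n
    obtain ⟨u, hu, -⟩ := exists_unit_orth E (by omega) 0
    have hu0 : u ≠ 0 := by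
      intro h0; rw [h0, norm_zero] at hu; exact zero_ne_one hu
    have : Fact (finrank ℝ E = (d + 2) + 1) := ⟨by omega⟩
    have hF : finrank ℝ (ℝ ∙ u)ᗮ = d + 2 := Submodule.finrank_orthogonal_span_singleton hu0
    obtain ⟨v, hv, hFo⟩ := ih (ℝ ∙ u)ᗮ hF n
    have hmap := Forces.map ((ℝ ∙ u)ᗮ).subtypeₗᵢ hFo
    have horth : ∀ i, ⟪u, ((ℝ ∙ u)ᗮ).subtypeₗᵢ (v i)⟫ = 0 := fun i =>
      Submodule.mem_orthogonal_singleton_iff_inner_right.mp (v i).2
    refine ⟨Fin.cons u (fun i => ((ℝ ∙ u)ᗮ).subtypeₗᵢ (v i)), ?_, ?_⟩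
    · intro i
      refine Fin.cases ?_ ?_ i
      · simp [hu]
      · intro j; simpa using hv j
    · right
      have e : ((d + 1 : ℕ) : ℝ) + 3 - (1 / 2) ^ n = ((d : ℝ) + 3 - (1 / 2) ^ n) + 1 := by
        push_cast; ring
      rw [e]
      refine ⟨?_, ?_⟩
      · have := Forces.add_orth (u := u) (by simp) horth hmap
        simpa [hu] using this
      · have := Forces.add_orth (u := -u) (by simp) (fun i => by
          rw [inner_neg_left, horth i, neg_zero]) hmap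
        simpa [hu, sub_eq_add_neg] using this

end Vale.Agent.P262
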