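import Vale.Agent.P262.Potential

/-!
# Mean square balancing of initial sums in Euclidean space
-/

namespace Vale.Agent.P262.MeanSquare

open Finset Vale.Agent.P262.Potential

variable {N d : ℕ} {J : Type*} [Fintype J]

/-- the signed initial sum of length `k` -/
noncomputable def pre (v : Fin N → EuclideanSpace ℝ (Fin d)) (ε : Fin N → ℝ) (k : ℕ) :
    EuclideanSpace ℝ (Fin d) :=
  ∑ i ∈ univ.filter (fun i : Fin N => (i : ℕ) < k), ε i • v i

/-- lifted vectors -/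
noncomputable def lift (v : Fin N → EuclideanSpace ℝ (Fin d)) (κ : J → ℕ)
    (θ : J → EuclideanSpace ℝ (Fin d)) (i : Fin N) : EuclideanSpace ℝ J :=
  WithLp.toLp 2 (fun j => if (i : ℕ) < κ j then inner ℝ (v i) (θ j) else 0)

/-- coordinate test vectors -/
noncomputable def tst (θ : J → EuclideanSpace ℝ (Fin d)) (a : Fin d) : EuclideanSpace ℝ J :=
  WithLp.toLp 2 (fun j => θ j a)

lemma inner_eq_sum (x y : EuclideanSpace ℝ (Fin d)) : inner ℝ x y = ∑ a, x a * y a := by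
  rw [PiLp.inner_apply]
  refine Finset.sum_congr rfl (fun a _ => ?_)
  simp [mul_comm]

lemma inner_eq_sum' (x y : EuclideanSpace ℝ J) : inner ℝ x y = ∑ a, x a * y a := by
  rw [PiLp.inner_apply]
  refine Finset.sum_congr rfl (fun a _ => ?_)
  simp [mul_comm]

lemma norm_sq_eq_sum (x : EuclideanSpace ℝ (Fin d)) : ‖x‖ ^ 2 = ∑ a, (x a) ^ 2 := by
  rw [EuclideanSpace.norm_sq_eq]
  simp

lemma norm_sq_eq_sum' (x : EuclideanSpace ℝ J) : ‖x‖ ^ 2 = ∑ a, (x a) ^ 2 := by
  rw [EuclideanSpace.norm_sq_eq]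
  simp

theorem directional (v : Fin N → EuclideanSpace ℝ (Fin d)) (hv : ∀ i, ‖v i‖ ≤ 1)
    (κ : J → ℕ) (θ : J → EuclideanSpace ℝ (Fin d)) :
    ∃ ε : Fin N → ℝ, (∀ i, ε i = 1 ∨ ε i = -1) ∧
      ∑ j, (inner ℝ (pre v ε (κ j)) (θ j)) ^ 2 ≤ ∑ j, ‖θ j‖ ^ 2 := by
  classical
  have hc : ∀ i, ∑ a, (v i a) ^ 2 ≤ 1 := by
    intro i
    rw [← norm_sq_eq_sum]
    have := hv i
    nlinarith [norm_nonneg (v i)]
  have hkey : ∀ (p : Fin N) (ρ : EuclideanSpace ℝ J),
      ρ ∈ sp (lift v κ θ) (univ.filter (fun j => p ≤ j)) →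
      inner ℝ ρ (lift v κ θ p) = ∑ a, v p a * inner ℝ ρ (tst θ a) := by
    intro p ρ hρ
    have hsupp : ∀ j, ¬ ((p : ℕ) < κ j) → ρ j = 0 := by
      intro j hj
      let S : Submodule ℝ (EuclideanSpace ℝ J) :=
        { carrier := {x | x j = 0}
          add_mem' := by intro x y hx hy; simp only [Set.mem_setOf_eq] at *; simp [hx, hy]
          zero_mem' := by simp
          smul_mem' := by intro t x hx; simp only [Set.mem_setOf_eq] at *; simp [hx] }
      have hle : sp (lift v κ θ) (univ.filter (fun j => p ≤ j)) ≤ S := by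
        unfold sp
        rw [Submodule.span_le]
        rintro _ ⟨i, hi, rfl⟩
        have hpi : p ≤ i := by simpa using hi
        have : ¬ ((i : ℕ) < κ j) := by
          intro h
          exact hj (lt_of_le_of_lt (by exact_mod_cast hpi) h)
        show (lift v κ θ i) j = 0
        simp [lift, this]
      exact hle hρ
    rw [inner_eq_sum']
    have e1 : ∀ j, ρ j * (lift v κ θ p) j = ρ j * inner ℝ (v p) (θ j) := by
      intro j
      by_cases hj : (p : ℕ) < κ j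
      · simp [lift, hj]
      · simp [hsupp j hj]
    rw [Finset.sum_congr rfl (fun j _ => e1 j)]
    simp only [inner_eq_sum, inner_eq_sum', tst, Finset.mul_sum]
    rw [Finset.sum_comm]
    refine Finset.sum_congr rfl (fun a _ => Finset.sum_congr rfl (fun j _ => ?_))
    ring
  obtain ⟨ε, hε, hle⟩ := balance (lift v κ θ) (tst θ) (fun i a => v i a) hc hkey
  refine ⟨ε, hε, ?_⟩
  have h1 : ‖∑ i, ε i • lift v κ θ i‖ ^ 2 = ∑ j, (inner ℝ (pre v ε (κ j)) (θ j)) ^ 2 := by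
    rw [norm_sq_eq_sum']
    refine Finset.sum_congr rfl (fun j _ => ?_)
    congr 1
    unfold pre
    rw [sum_inner, Finset.sum_filter]
    have : (∑ i, ε i • lift v κ θ i) j = ∑ i, (ε i • lift v κ θ i) j := by
      simp
    rw [this]
    refine Finset.sum_congr rfl (fun i _ => ?_)
    by_cases hi : (i : ℕ) < κ j
    · simp [lift, hi, inner_smul_left]
    · simp [lift, hi]
  have h2 : ∑ a, ‖tst θ a‖ ^ 2 = ∑ j, ‖θ j‖ ^ 2 := by
    simp only [norm_sq_eq_sum, norm_sq_eq_sum', tst]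
    rw [Finset.sum_comm]
  rw [h1, h2] at hle
  exact hle

theorem weighted (v : Fin N → EuclideanSpace ℝ (Fin d)) (hv : ∀ i, ‖v i‖ ≤ 1)
    (c : ℕ → ℝ) (hc : ∀ k, 0 ≤ c k) :
    ∃ ε : Fin N → ℝ, (∀ i, ε i = 1 ∨ ε i = -1) ∧
      ∑ k ∈ range (N + 1), c k * ‖pre v ε k‖ ^ 2 ≤ d * ∑ k ∈ range (N + 1), c k := by
  classical
  obtain ⟨ε, hε, hle⟩ := directional (J := Fin (N + 1) × Fin d) v hv (fun j => (j.1 : ℕ))
    (fun j => Real.sqrt (c j.1) • EuclideanSpace.single j.2 (1 : ℝ))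
  refine ⟨ε, hε, ?_⟩
  have h1 : ∑ j : Fin (N + 1) × Fin d, (inner ℝ (pre v ε (j.1 : ℕ))
      (Real.sqrt (c j.1) • EuclideanSpace.single j.2 (1 : ℝ))) ^ 2
      = ∑ k ∈ range (N + 1), c k * ‖pre v ε k‖ ^ 2 := by
    rw [Fintype.sum_prod_type, Finset.sum_range]
    refine Finset.sum_congr rfl (fun k _ => ?_)
    rw [norm_sq_eq_sum, Finset.mul_sum]
    refine Finset.sum_congr rfl (fun a _ => ?_)
    rw [inner_smul_right, mul_pow, Real.sq_sqrt (hc _)]
    congr 1
    simp [inner_eq_sum, EuclideanSpace.single_apply]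
  have h2 : ∑ j : Fin (N + 1) × Fin d,
      ‖Real.sqrt (c j.1) • EuclideanSpace.single j.2 (1 : ℝ)‖ ^ 2
      = d * ∑ k ∈ range (N + 1), c k := by
    rw [Fintype.sum_prod_type, Finset.sum_range, Finset.mul_sum]
    refine Finset.sum_congr rfl (fun k _ => ?_)
    have : ∀ a : Fin d, ‖Real.sqrt (c k) • EuclideanSpace.single a (1 : ℝ)‖ ^ 2 = c k := by
      intro a
      rw [norm_smul, mul_pow, Real.norm_eq_abs, sq_abs, Real.sq_sqrt (hc _)]
      simp
    simp [this]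
  rw [h1, h2] at hle
  exact hle

end Vale.Agent.P262.MeanSquare
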