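import Vale.Agent.P262.Basic

namespace Vale.Agent.P262

open scoped BigOperators RealInnerProductSpace
open Module

section Merge

set_option linter.unusedSectionVars false

variable {E : Type*} [NormedAddCommGroup E] [InnerProductSpace ℝ E]

lemma Safe.neg : ∀ {n : ℕ} {v : Fin n → E} {P : E} {ρ : ℝ},
    Safe n v P ρ → Safe n v (-P) ρ := by
  intro n
  induction n with
  | zero =>
    intro v P ρ h
    simpa [Safe] using h
  | succ n ih =>
    intro v P ρ h
    obtain ⟨hP, h1 | h1⟩ := h
    · refine ⟨by simpa using hP, Or.inr ?_⟩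
      have e : -P - v 0 = -(P + v 0) := by abel
      rw [e]; exact ih h1
    · refine ⟨by simpa using hP, Or.inl ?_⟩
      have e : -P + v 0 = -(P - v 0) := by abel
      rw [e]; exact ih h1

lemma merge_aux (x y z : E) (α β γ : ℝ) (h : α • x + β • y + γ • z = 0) (hα : α ≠ 0)
    (hβ : |β| ≤ |α|) (hγ : |γ| ≤ |α|) (hy : ‖y‖ ≤ 1) (hz : ‖z‖ ≤ 1) :
    ‖x + y‖ ≤ 1 ∨ ‖x - y‖ ≤ 1 ∨ ‖x + z‖ ≤ 1 ∨ ‖x - z‖ ≤ 1 := by
  by_contra hcon
  push Not at hcon
  obtain ⟨h1, h2, h3, h4⟩ := hcon
  have sq : ∀ w : E, 1 < ‖w‖ → 1 < ‖w‖ ^ 2 := fun w hw => by nlinarith [norm_nonneg w]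
  have h1' := sq _ h1
  have h2' := sq _ h2
  have h3' := sq _ h3
  have h4' := sq _ h4
  rw [norm_add_sq_real] at h1' h3'
  rw [norm_sub_sq_real] at h2' h4'
  have hy2 : ‖y‖ ^ 2 ≤ 1 := by nlinarith [norm_nonneg y]
  have hz2 : ‖z‖ ^ 2 ≤ 1 := by nlinarith [norm_nonneg z]
  set a := ‖x‖ ^ 2 with ha
  set p := ⟪x, y⟫ with hp
  set q := ⟪x, z⟫ with hq
  have hin : α * a + β * p + γ * q = 0 := by
    have := congrArg (fun w => ⟪x, w⟫) h
    simp only [inner_add_right, inner_smul_right, inner_zero_right,
      real_inner_self_eq_norm_sq] at this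
    exact this
  have hp' : |p| < a / 2 := by rw [abs_lt]; constructor <;> linarith
  have hq' : |q| < a / 2 := by rw [abs_lt]; constructor <;> linarith
  have hαpos : 0 < |α| := abs_pos.mpr hα
  have key : |α| * a ≤ |α| * |p| + |α| * |q| := by
    have e : α * a = -(β * p + γ * q) := by linarith
    have apos : 0 ≤ a := by positivity
    calc |α| * a = |α * a| := by rw [abs_mul, abs_of_nonneg apos]
      _ = |β * p + γ * q| := by rw [e, abs_neg]
      _ ≤ |β * p| + |γ * q| := abs_add_le _ _
      _ = |β| * |p| + |γ| * |q| := by rw [abs_mul, abs_mul]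
      _ ≤ |α| * |p| + |α| * |q| := by
        gcongr
  nlinarith

lemma merge_plane [FiniteDimensional ℝ E] (hd : finrank ℝ E = 2) (x y z : E)
    (hx : ‖x‖ ≤ 1) (hy : ‖y‖ ≤ 1) (hz : ‖z‖ ≤ 1) :
    (‖x + y‖ ≤ 1 ∨ ‖x - y‖ ≤ 1) ∨ (‖x + z‖ ≤ 1 ∨ ‖x - z‖ ≤ 1) ∨ (‖y + z‖ ≤ 1 ∨ ‖y - z‖ ≤ 1) := by
  have hdep : ¬ LinearIndependent ℝ ![x, y, z] := by
    intro hli
    have := hli.fintype_card_le_finrank
    simp [hd] at this
  rw [Fintype.not_linearIndependent_iff] at hdep
  obtain ⟨g, hg, hne⟩ := hdep
  simp only [Fin.sum_univ_three, Matrix.cons_val_zero, Matrix.cons_val_one,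
    Matrix.cons_val_two, Matrix.head_cons, Matrix.tail_cons] at hg
  set α := g 0
  set β := g 1
  set γ := g 2
  have hne' : α ≠ 0 ∨ β ≠ 0 ∨ γ ≠ 0 := by
    obtain ⟨i, hi⟩ := hne
    fin_cases i
    · left; exact hi
    · right; left; exact hi
    · right; right; exact hi
  have hnz : ∀ a b c : ℝ, |b| ≤ |a| → |c| ≤ |a| → (a ≠ 0 ∨ b ≠ 0 ∨ c ≠ 0) → a ≠ 0 := by
    intro a b c hb hc h ha
    rw [ha, abs_zero] at hb hc
    have hb0 : b = 0 := abs_eq_zero.mp (le_antisymm hb (abs_nonneg _))
    have hc0 : c = 0 := abs_eq_zero.mp (le_antisymm hc (abs_nonneg _))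
    rcases h with h | h | h
    · exact h ha
    · exact h hb0
    · exact h hc0
  rcases le_total |β| |α| with hab | hab
  · rcases le_total |γ| |α| with hac | hac
    · -- α largest
      have := merge_aux x y z α β γ hg (hnz α β γ hab hac hne') hab hac hy hz
      tauto
    · -- γ largest
      have hbc : |β| ≤ |γ| := hab.trans hac
      have hg' : γ • z + α • x + β • y = 0 := by rw [← hg]; abel
      have := merge_aux z x y γ α β hg' (hnz γ α β hac hbc (by tauto)) hac hbc hx hy
      rw [add_comm z x, add_comm z y, norm_sub_rev z x, norm_sub_rev z y] at this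
      tauto
  · rcases le_total |γ| |β| with hbc | hbc
    · -- β largest
      have hg' : β • y + α • x + γ • z = 0 := by rw [← hg]; abel
      have := merge_aux y x z β α γ hg' (hnz β α γ hab hbc (by tauto)) hab hbc hx hz
      rw [add_comm y x, norm_sub_rev y x] at this
      tauto
    · -- γ largest
      have hac : |α| ≤ |γ| := hab.trans hbc
      have hg' : γ • z + α • x + β • y = 0 := by rw [← hg]; abel
      have := merge_aux z x y γ α β hg' (hnz γ α β hac hbc (by tauto)) hac hbc hx hy
      rw [add_comm z x, add_comm z y, norm_sub_rev z x, norm_sub_rev z y] at this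
      tauto

lemma norm_le_one_of_sq_lt {w : E} (h : ‖w‖ ^ 2 ≤ 1) : ‖w‖ ≤ 1 := by
  nlinarith [norm_nonneg w]

theorem safe_plane [FiniteDimensional ℝ E] (hd : finrank ℝ E = 2) :
    ∀ (n : ℕ) (v : Fin n → E), (∀ i, ‖v i‖ ≤ 1) → ∀ x y : E, ‖x‖ ≤ 1 → ‖y‖ ≤ 1 →
    Safe n v (x + y) 3 ∨ Safe n v (x - y) 3 := by
  intro n
  induction n with
  | zero =>
    intro v _ x y hx hy
    have hpar := parallelogram_law_with_norm ℝ x y
    by_cases h : ‖x + y‖ ^ 2 ≤ 3
    · left; exact h
    · right
      show ‖x - y‖ ^ 2 ≤ 3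
      push Not at h
      nlinarith [norm_nonneg x, norm_nonneg y]
  | succ n ih =>
    intro v hv x y hx hy
    have hpar := parallelogram_law_with_norm ℝ x y
    have ihn := ih (Fin.tail v) (fun i => hv i.succ)
    have hw := hv 0
    set w := v 0 with hwdef
    -- a candidate in the unit ball is safe
    have small : ∀ z : E, ‖z‖ ≤ 1 → Safe (n + 1) v z 3 := by
      intro z hz
      refine ⟨by nlinarith [norm_nonneg z], ?_⟩
      exact ihn z w hz hw
    by_cases h1 : ‖x + y‖ ^ 2 ≤ 3
    · by_cases h2 : ‖x - y‖ ^ 2 ≤ 3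
      · rcases merge_plane hd x y w hx hy hw with (h | h) | (h | h) | (h | h)
        · left; exact small _ h
        · right; exact small _ h
        · -- z = x + w, pair (z, y)
          rcases ihn (x + w) y h hy with h' | h'
          · left
            refine ⟨h1, Or.inl ?_⟩
            have e : x + y + w = x + w + y := by abel
            rw [← hwdef, e]; exact h'
          · right
            refine ⟨h2, Or.inl ?_⟩
            have e : x - y + w = x + w - y := by abel
            rw [← hwdef, e]; exact h'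
        · rcases ihn (x - w) y h hy with h' | h'
          · left
            refine ⟨h1, Or.inr ?_⟩
            have e : x + y - w = x - w + y := by abel
            rw [← hwdef, e]; exact h'
          · right
            refine ⟨h2, Or.inr ?_⟩
            have e : x - y - w = x - w - y := by abel
            rw [← hwdef, e]; exact h'
        · -- z = y + w, pair (x, z)
          rcases ihn x (y + w) hx h with h' | h'
          · left
            refine ⟨h1, Or.inl ?_⟩
            have e : x + y + w = x + (y + w) := by abel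
            rw [← hwdef, e]; exact h'
          · right
            refine ⟨h2, Or.inr ?_⟩
            have e : x - y - w = x - (y + w) := by abel
            rw [← hwdef, e]; exact h'
        · rcases ihn x (y - w) hx h with h' | h'
          · left
            refine ⟨h1, Or.inr ?_⟩
            have e : x + y - w = x + (y - w) := by abel
            rw [← hwdef, e]; exact h'
          · right
            refine ⟨h2, Or.inl ?_⟩
            have e : x - y + w = x - (y - w) := by abel
            rw [← hwdef, e]; exact h'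
      · left
        push Not at h2
        exact small _ (norm_le_one_of_sq_lt (by nlinarith [norm_nonneg x, norm_nonneg y]))
    · right
      push Not at h1
      exact small _ (norm_le_one_of_sq_lt (by nlinarith [norm_nonneg x, norm_nonneg y]))

end Merge

end Vale.Agent.P262
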