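import Vale.Agent.P262.Walk

/-!
# The potential built from distances to spans, and the abstract balancing theorem
-/

namespace Vale.Agent.P262.Potential

open Finset Vale.Agent.P262.Walk

variable {H : Type*} [NormedAddCommGroup H] [InnerProductSpace ℝ H]

/-- squared distance from `g` to the subspace `K` -/
noncomputable def dsq (K : Submodule ℝ H) (g : H) : ℝ := ⨅ h : K, ‖g - (h : H)‖ ^ 2

lemma dsq_bdd (K : Submodule ℝ H) (g : H) : BddBelow (Set.range fun h : K => ‖g - (h : H)‖ ^ 2) :=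
  ⟨0, by rintro _ ⟨h, rfl⟩; positivity⟩

lemma dsq_le (K : Submodule ℝ H) (g : H) {h : H} (hh : h ∈ K) : dsq K g ≤ ‖g - h‖ ^ 2 :=
  ciInf_le (dsq_bdd K g) (⟨h, hh⟩ : K)

lemma le_dsq (K : Submodule ℝ H) (g : H) (c : ℝ) (hc : ∀ h ∈ K, c ≤ ‖g - h‖ ^ 2) : c ≤ dsq K g :=
  le_ciInf (fun h : K => hc h h.2)

lemma dsq_nonneg (K : Submodule ℝ H) (g : H) : 0 ≤ dsq K g :=
  le_dsq K g 0 (fun _ _ => by positivity)

lemma dsq_anti {K K' : Submodule ℝ H} (hK : K' ≤ K) (g : H) : dsq K g ≤ dsq K' g :=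
  le_dsq K' g _ (fun _ hh => dsq_le K g (hK hh))

lemma dsq_bot (g : H) : dsq (⊥ : Submodule ℝ H) g = ‖g‖ ^ 2 := by
  apply le_antisymm
  · simpa using dsq_le (⊥ : Submodule ℝ H) g (h := 0) (Submodule.zero_mem _)
  · apply le_dsq
    intro h hh
    rw [Submodule.mem_bot] at hh
    simp [hh]

/-- gain of the squared distance when a direction `z` orthogonal to `K'` is added -/
lemma dsq_gain {K K' : Submodule ℝ H} (hK : K' ≤ K) (g z : H) (hz : z ∈ K)
    (hz' : ∀ h ∈ K', inner ℝ h z = 0) (hz0 : z ≠ 0) :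
    dsq K g + (inner ℝ z g) ^ 2 / ‖z‖ ^ 2 ≤ dsq K' g := by
  have hzn : 0 < ‖z‖ ^ 2 := by positivity
  suffices h : dsq K g ≤ dsq K' g - (inner ℝ z g) ^ 2 / ‖z‖ ^ 2 by linarith
  have : dsq K g + (inner ℝ z g) ^ 2 / ‖z‖ ^ 2 ≤ dsq K' g := by
    apply le_dsq
    intro h hh
    set t : ℝ := inner ℝ z g / ‖z‖ ^ 2 with ht
    have h1 : dsq K g ≤ ‖g - (h + t • z)‖ ^ 2 :=
      dsq_le K g (K.add_mem (hK hh) (K.smul_mem _ hz))
    have h2 : ‖g - (h + t • z)‖ ^ 2 = ‖g - h‖ ^ 2 - (inner ℝ z g) ^ 2 / ‖z‖ ^ 2 := by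
      have e : g - (h + t • z) = (g - h) - t • z := by abel
      rw [e, norm_sub_sq_real, inner_smul_right, norm_smul, mul_pow, Real.norm_eq_abs, sq_abs,
        inner_sub_left, hz' h hh, real_inner_comm z g]
      rw [ht]
      field_simp
      ring
    linarith
  linarith

variable [FiniteDimensional ℝ H] {N d : ℕ}

/-- span of the vectors with index in `A` -/
def sp (w : Fin N → H) (A : Finset (Fin N)) : Submodule ℝ H :=
  Submodule.span ℝ (w '' (A : Set (Fin N)))

lemma sp_mono (w : Fin N → H) {A B : Finset (Fin N)} (h : A ⊆ B) : sp w A ≤ sp w B :=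
  Submodule.span_mono (Set.image_mono (by exact_mod_cast h))

/-- the potential -/
noncomputable def U (w : Fin N → H) (g : Fin d → H) (A : Finset (Fin N)) : ℝ :=
  - ∑ a, dsq (sp w A) (g a)

lemma U_mono (w : Fin N → H) (g : Fin d → H) (A B : Finset (Fin N)) (h : A ⊆ B) :
    U w g A ≤ U w g B := by
  unfold U
  apply neg_le_neg
  exact Finset.sum_le_sum (fun a _ => dsq_anti (sp_mono w h) (g a))

lemma U_empty (w : Fin N → H) (g : Fin d → H) : U w g ∅ = - ∑ a, ‖g a‖ ^ 2 := by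
  unfold U sp
  simp [dsq_bot]

lemma U_nonpos (w : Fin N → H) (g : Fin d → H) (A : Finset (Fin N)) : U w g A ≤ 0 := by
  unfold U
  have : 0 ≤ ∑ a, dsq (sp w A) (g a) := Finset.sum_nonneg (fun a _ => dsq_nonneg _ _)
  linarith

lemma U_step (w : Fin N → H) (g : Fin d → H) (c : Fin N → Fin d → ℝ)
    (hc : ∀ i, ∑ a, (c i a) ^ 2 ≤ 1)
    (hkey : ∀ (p : Fin N) (ρ : H), ρ ∈ sp w (univ.filter (fun j => p ≤ j)) →
      inner ℝ ρ (w p) = ∑ a, c p a * inner ℝ ρ (g a))
    (A : Finset (Fin N)) (h : A.Nonempty) : ∃ u : Fin N → ℝ,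
      (∀ i, i ∉ A → u i = 0) ∧ u (A.min' h) = 1 ∧
      ‖∑ i, u i • w i‖ ^ 2 ≤ U w g A - U w g (A.erase (A.min' h)) := by
  classical
  set p := A.min' h with hp
  have hpA : p ∈ A := Finset.min'_mem _ _
  set K' := sp w (A.erase p) with hK'
  set K := sp w A with hK
  have hKK : K' ≤ K := sp_mono w (Finset.erase_subset _ _)
  obtain ⟨y, hy, z, hz, hyz⟩ := K'.exists_add_mem_mem_orthogonal (w p)
  obtain ⟨cf, hcf⟩ := (Submodule.mem_span_image_finset_iff_exists_fun' ℝ).mp hy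
  have hwp : w p ∈ K := Submodule.subset_span ⟨p, by exact_mod_cast hpA, rfl⟩
  have hzK : z ∈ K := by
    have : z = w p - y := by rw [hyz]; abel
    rw [this]; exact K.sub_mem hwp (hKK hy)
  have hzorth : ∀ h' ∈ K', inner ℝ h' z = 0 := fun h' hh' =>
    (Submodule.mem_orthogonal K' z).mp hz h' hh'
  refine ⟨fun i => if i = p then 1 else if i ∈ A then - cf i else 0, ?_, by simp, ?_⟩
  · intro i hi
    have : i ≠ p := by rintro rfl; exact hi hpA
    simp [this, hi]
  · have hsum : ∑ i, (if i = p then (1:ℝ) else if i ∈ A then - cf i else 0) • w i = z := by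
      have e1 : ∑ i, (if i = p then (1:ℝ) else if i ∈ A then - cf i else 0) • w i
          = w p + ∑ i ∈ univ.erase p, (if i ∈ A then - cf i else 0) • w i := by
        rw [← Finset.add_sum_erase univ _ (Finset.mem_univ p)]
        congr 1
        · simp
        · refine Finset.sum_congr rfl (fun i hi => ?_)
          rw [if_neg (Finset.ne_of_mem_erase hi)]
      have e2 : ∑ i ∈ univ.erase p, (if i ∈ A then - cf i else 0) • w i
          = - ∑ i ∈ A.erase p, cf i • w i := by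
        rw [← Finset.sum_neg_distrib]
        have hsub : A.erase p ⊆ univ.erase p := Finset.erase_subset_erase _ (Finset.subset_univ _)
        rw [← Finset.sum_subset hsub]
        · refine Finset.sum_congr rfl (fun i hi => ?_)
          rw [if_pos (Finset.mem_of_mem_erase hi), neg_smul]
        · intro i hi hi'
          have : i ∉ A := fun hA => hi' (Finset.mem_erase.mpr ⟨Finset.ne_of_mem_erase hi, hA⟩)
          simp [this]
      rw [e1, e2, hcf, hyz]; abel
    rw [hsum]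
    have hdiff : U w g A - U w g (A.erase p) = ∑ a, (dsq K' (g a) - dsq K (g a)) := by
      unfold U
      rw [Finset.sum_sub_distrib]
      ring
    rw [hdiff]
    by_cases hz0 : z = 0
    · rw [hz0]
      simp only [norm_zero, ne_eq, OfNat.ofNat_ne_zero, not_false_eq_true, zero_pow]
      exact Finset.sum_nonneg (fun a _ => sub_nonneg.mpr (dsq_anti hKK (g a)))
    · have hzn : 0 < ‖z‖ ^ 2 := by positivity
      have h1 : ∑ a, (inner ℝ z (g a)) ^ 2 / ‖z‖ ^ 2 ≤ ∑ a, (dsq K' (g a) - dsq K (g a)) := by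
        refine Finset.sum_le_sum (fun a _ => ?_)
        have := dsq_gain hKK (g a) z hzK hzorth hz0
        linarith
      have h2 : ‖z‖ ^ 2 = ∑ a, c p a * inner ℝ z (g a) := by
        rw [← hkey p z]
        · rw [hyz, inner_add_right, real_inner_comm, hzorth y hy, real_inner_self_eq_norm_sq]
          ring
        · refine sp_mono w ?_ hzK
          intro i hi
          simp only [Finset.mem_filter, Finset.mem_univ, true_and]
          exact Finset.min'_le _ _ hi
      have h3 : (‖z‖ ^ 2) ^ 2 ≤ ∑ a, (inner ℝ z (g a)) ^ 2 := by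
        rw [h2]
        calc (∑ a, c p a * inner ℝ z (g a)) ^ 2
            ≤ (∑ a, (c p a) ^ 2) * ∑ a, (inner ℝ z (g a)) ^ 2 :=
              Finset.sum_mul_sq_le_sq_mul_sq _ _ _
          _ ≤ 1 * ∑ a, (inner ℝ z (g a)) ^ 2 := by
              apply mul_le_mul_of_nonneg_right (hc p)
              exact Finset.sum_nonneg (fun a _ => sq_nonneg _)
          _ = _ := one_mul _
      have h4 : ‖z‖ ^ 2 ≤ ∑ a, (inner ℝ z (g a)) ^ 2 / ‖z‖ ^ 2 := by
        rw [← Finset.sum_div, le_div_iff₀ hzn]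
        nlinarith
      linarith

/-- **Abstract balancing theorem.** -/
theorem balance (w : Fin N → H) (g : Fin d → H) (c : Fin N → Fin d → ℝ)
    (hc : ∀ i, ∑ a, (c i a) ^ 2 ≤ 1)
    (hkey : ∀ (p : Fin N) (ρ : H), ρ ∈ sp w (univ.filter (fun j => p ≤ j)) →
      inner ℝ ρ (w p) = ∑ a, c p a * inner ℝ ρ (g a)) :
    ∃ ε : Fin N → ℝ, (∀ i, ε i = 1 ∨ ε i = -1) ∧
      ‖∑ i, ε i • w i‖ ^ 2 ≤ ∑ a, ‖g a‖ ^ 2 := by
  obtain ⟨ε, hε, hle⟩ := walk w (U w g) (U_mono w g) (U_step w g c hc hkey) _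
    (fun _ => (0 : ℝ)) rfl (by intro i; simp)
  refine ⟨ε, hε, ?_⟩
  have h1 : pot (U w g) (fun _ => (0 : ℝ)) ≤ 0 :=
    le_trans (pot_le _ (U_mono w g) _ (by intro i; simp)) (U_nonpos w g _)
  rw [U_empty] at hle
  simp only [zero_smul, Finset.sum_const_zero, norm_zero] at hle
  nlinarith

end Vale.Agent.P262.Potential
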