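import Vale.Agent.P262.MeanSquare

/-!
# From signs to rearrangements, in mean square
-/

namespace Vale.Agent.P262.Rearrange

open Finset

section lists

variable {α β : Type*}

/-- elements marked `true` are put at the front, elements marked `false` at the back -/
def arr : List (Bool × α) → List α
  | [] => []
  | (true, x) :: L => x :: arr L
  | (false, x) :: L => arr L ++ [x]

lemma arr_perm : ∀ L : List (Bool × α), (arr L).Perm (L.map Prod.snd)
  | [] => List.Perm.refl _
  | (true, x) :: L => by
      simp only [arr, List.map_cons]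
      exact (arr_perm L).cons x
  | (false, x) :: L => by
      simp only [arr, List.map_cons]
      exact (List.perm_append_singleton x (arr L)).trans ((arr_perm L).cons x)

lemma arr_map (f : α → β) : ∀ L : List (Bool × α),
    (arr L).map f = arr (L.map (fun q => (q.1, f q.2)))
  | [] => rfl
  | (true, x) :: L => by simp [arr, arr_map f L]
  | (false, x) :: L => by simp [arr, arr_map f L]

end lists

variable {E : Type*} [NormedAddCommGroup E] [InnerProductSpace ℝ E]

/-- sum of the squared norms of all initial sums, started from `off` -/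
noncomputable def ps : E → List E → ℝ
  | off, [] => ‖off‖ ^ 2
  | off, x :: l => ‖off‖ ^ 2 + ps (off + x) l

lemma ps_append_singleton (x : E) : ∀ (l : List E) (off : E),
    ps off (l ++ [x]) = ps off l + ‖off + l.sum + x‖ ^ 2
  | [], off => by simp [ps]
  | y :: l, off => by
      simp only [List.cons_append, ps, List.sum_cons]
      rw [ps_append_singleton x l (off + y)]
      rw [add_assoc off y l.sum]
      ring

lemma half_add_le (s t : E) : ‖(1 / 2 : ℝ) • (s + t)‖ ^ 2 ≤ (‖s‖ ^ 2 + ‖t‖ ^ 2) / 2 := by
  rw [norm_smul, mul_pow, Real.norm_eq_abs, sq_abs]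
  have h := parallelogram_law_with_norm ℝ s t
  nlinarith [norm_nonneg (s - t), sq_nonneg ‖s - t‖]

lemma half_sub_le (s t : E) : ‖(1 / 2 : ℝ) • (s - t)‖ ^ 2 ≤ (‖s‖ ^ 2 + ‖t‖ ^ 2) / 2 := by
  have := half_add_le s (-t)
  simpa [sub_eq_add_neg] using this

/-- the signed vector -/
def sg (q : Bool × E) : E := if q.1 then q.2 else -q.2

lemma ps_arr_le : ∀ (L : List (Bool × E)) (s t : E), s + (L.map Prod.snd).sum = 0 →
    ps ((1 / 2 : ℝ) • (s + t)) (arr L) ≤ (ps s (L.map Prod.snd) + ps t (L.map sg)) / 2
  | [], s, t, _ => by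
      simp only [arr, ps, List.map_nil]
      exact half_add_le s t
  | (true, x) :: L, s, t, h => by
      simp only [arr, ps, List.map_cons, sg, if_true]
      have h' : (s + x) + (L.map Prod.snd).sum = 0 := by
        rw [← h]; simp [add_assoc]
      have ih := ps_arr_le L (s + x) (t + x) h'
      have e : (1 / 2 : ℝ) • (s + t) + x = (1 / 2 : ℝ) • ((s + x) + (t + x)) := by
        have : x = (1 / 2 : ℝ) • (x + x) := by
          rw [← two_smul ℝ x, smul_smul]; norm_num
        calc (1 / 2 : ℝ) • (s + t) + x = (1 / 2 : ℝ) • (s + t) + (1 / 2 : ℝ) • (x + x) := by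
              rw [← this]
          _ = _ := by rw [← smul_add]; congr 1; abel
      rw [e]
      have := half_add_le s t
      linarith
  | (false, x) :: L, s, t, h => by
      simp only [arr, ps, List.map_cons, sg]
      have h' : (s + x) + (L.map Prod.snd).sum = 0 := by
        rw [← h]; simp [add_assoc]
      have ih := ps_arr_le L (s + x) (t + -x) h'
      rw [ps_append_singleton]
      have e : (1 / 2 : ℝ) • (s + t) = (1 / 2 : ℝ) • ((s + x) + (t + -x)) := by
        congr 1; abel
      have hsum : (arr L).sum = (L.map Prod.snd).sum := (arr_perm L).sum_eq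
      have e2 : (1 / 2 : ℝ) • (s + t) + (arr L).sum + x = -((1 / 2 : ℝ) • (s - t)) := by
        rw [hsum]
        have h3 : (L.map Prod.snd).sum + x = -s := by
          have : s + x + (L.map Prod.snd).sum = 0 := h'
          have h4 : (L.map Prod.snd).sum + x = -s := by
            rw [eq_neg_iff_add_eq_zero]
            rw [← this]; abel
          exact h4
        rw [add_assoc, h3]
        have : s = (1 / 2 : ℝ) • (s + s) := by
          rw [← two_smul ℝ s, smul_smul]; norm_num
        calc (1 / 2 : ℝ) • (s + t) + -s = (1 / 2 : ℝ) • (s + t) + -((1 / 2 : ℝ) • (s + s)) := by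
              rw [← this]
          _ = _ := by
              rw [← smul_neg, ← smul_neg, ← smul_add]; congr 1; abel
      rw [e2, norm_neg]
      have h5 := half_sub_le s t
      rw [← e] at ih
      simp only [Bool.false_eq_true, if_false]
      linarith


lemma ps_ofFn : ∀ (N : ℕ) (z : Fin N → E) (off : E),
    ps off (List.ofFn z) =
      ∑ k ∈ range (N + 1), ‖off + ∑ i ∈ univ.filter (fun i : Fin N => (i : ℕ) < k), z i‖ ^ 2
  | 0, z, off => by simp [ps]
  | N + 1, z, off => by
      rw [List.ofFn_succ]
      simp only [ps]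
      rw [ps_ofFn N (fun i => z i.succ) (off + z 0), Finset.sum_range_succ' _ (N + 1)]
      have h0 : ‖off + ∑ i ∈ univ.filter (fun i : Fin (N + 1) => (i : ℕ) < 0), z i‖ ^ 2
          = ‖off‖ ^ 2 := by simp
      rw [h0, add_comm]
      congr 1
      refine Finset.sum_congr rfl (fun k _ => ?_)
      congr 2
      rw [Finset.sum_filter, Finset.sum_filter, Fin.sum_univ_succ]
      simp [add_assoc]

/-- a list of indices that is a rearrangement of all indices comes from a bijection -/
lemma exists_perm_of_list {N : ℕ} (l : List (Fin N)) (h : l.Perm (List.finRange N)) :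
    ∃ τ : Equiv.Perm (Fin N), l = List.ofFn τ := by
  have hnd : l.Nodup := h.nodup_iff.mpr (List.nodup_finRange N)
  have hmem : ∀ x : Fin N, x ∈ l := fun x => h.mem_iff.mpr (List.mem_finRange x)
  have hlen : l.length = N := by rw [h.length_eq, List.length_finRange]
  let e := hnd.getEquivOfForallMemList l hmem
  refine ⟨(finCongr hlen.symm).trans e, ?_⟩
  apply List.ext_getElem
  · simp [hlen]
  · intro i h1 h2
    simp [e, List.Nodup.getEquivOfForallMemList]


open Vale.Agent.P262.MeanSquare in
theorem steinitz_ms {N d : ℕ} (v : Fin N → EuclideanSpace ℝ (Fin d)) (hv : ∀ i, ‖v i‖ ≤ 1)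
    (h0 : ∑ i, v i = 0) :
    ∃ σ : Equiv.Perm (Fin N),
      ∑ k ∈ range (N + 1), ‖∑ i ∈ univ.filter (fun i : Fin N => (i : ℕ) < k), v (σ i)‖ ^ 2
        ≤ d * N := by
  classical
  let Φ : Equiv.Perm (Fin N) → ℝ := fun σ => ps 0 (List.ofFn (fun i => v (σ i)))
  obtain ⟨σ0, -, hmin⟩ := Finset.exists_min_image (univ : Finset (Equiv.Perm (Fin N))) Φ
    ⟨1, Finset.mem_univ _⟩
  set u : Fin N → EuclideanSpace ℝ (Fin d) := fun i => v (σ0 i) with hu
  have hun : ∀ i, ‖u i‖ ≤ 1 := fun i => hv _
  have hus : ∑ i, u i = 0 := by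
    rw [← h0]; exact Equiv.sum_comp σ0 v
  obtain ⟨ε, hε, hle⟩ := weighted u hun (fun k => if k = 0 then 0 else 1)
    (fun k => by split_ifs <;> norm_num)
  have hc : ∑ k ∈ range (N + 1), (if k = 0 then (0 : ℝ) else 1) = N := by
    rw [Finset.sum_range_succ']
    simp
  have hD : ∑ k ∈ range (N + 1), (if k = 0 then (0 : ℝ) else 1) * ‖pre u ε k‖ ^ 2
      = ∑ k ∈ range (N + 1), ‖pre u ε k‖ ^ 2 := by
    refine Finset.sum_congr rfl (fun k _ => ?_)
    by_cases hk : k = 0
    · subst hk
      simp [pre]
    · simp [hk]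
  rw [hc, hD] at hle
  set L : List (Bool × Fin N) := (List.finRange N).map (fun i => (decide (ε i = 1), i)) with hL
  have hperm : (arr L).Perm (List.finRange N) := by
    have := arr_perm L
    rw [hL, List.map_map] at this
    simpa [Function.comp_def] using this
  obtain ⟨τ, hτ⟩ := exists_perm_of_list (arr L) hperm
  set L' : List (Bool × EuclideanSpace ℝ (Fin d)) :=
    (List.finRange N).map (fun i => (decide (ε i = 1), u i)) with hL'
  have hΦτ : Φ (σ0 * τ) = ps 0 (arr L') := by
    have e1 : List.ofFn (fun i => v ((σ0 * τ) i)) = (List.ofFn τ).map u := by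
      rw [List.map_ofFn]
      rfl
    show ps 0 (List.ofFn (fun i => v ((σ0 * τ) i))) = _
    rw [e1, ← hτ, arr_map, hL, hL', List.map_map]
    rfl
  have hsnd : L'.map Prod.snd = List.ofFn u := by
    rw [hL', List.map_map, List.ofFn_eq_map]
    rfl
  have hsg : L'.map sg = List.ofFn (fun i => ε i • u i) := by
    rw [hL', List.map_map, List.ofFn_eq_map]
    refine List.map_congr_left (fun i _ => ?_)
    simp only [Function.comp, sg]
    rcases hε i with h | h
    · simp [h]
    · have : ¬ ((-1 : ℝ) = 1) := by norm_num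
      simp [h, this]
  have hsum0 : (0 : EuclideanSpace ℝ (Fin d)) + (L'.map Prod.snd).sum = 0 := by
    rw [hsnd, List.sum_ofFn, hus, add_zero]
  have hkey := ps_arr_le L' 0 0 hsum0
  rw [add_zero, smul_zero, hsnd, hsg] at hkey
  have hDps : ps 0 (List.ofFn (fun i => ε i • u i)) = ∑ k ∈ range (N + 1), ‖pre u ε k‖ ^ 2 := by
    rw [ps_ofFn]
    refine Finset.sum_congr rfl (fun k _ => ?_)
    rw [zero_add]
    rfl
  have h1 : Φ σ0 ≤ Φ (σ0 * τ) := hmin _ (Finset.mem_univ _)
  have h2 : Φ σ0 = ps 0 (List.ofFn u) := rfl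
  refine ⟨σ0, ?_⟩
  have h3 : ∑ k ∈ range (N + 1), ‖∑ i ∈ univ.filter (fun i : Fin N => (i : ℕ) < k), v (σ0 i)‖ ^ 2
      = ps 0 (List.ofFn u) := by
    rw [ps_ofFn]
    refine Finset.sum_congr rfl (fun k _ => ?_)
    rw [zero_add]
  rw [h3]
  rw [hΦτ, h2] at h1
  rw [hDps] at hkey
  linarith

end Vale.Agent.P262.Rearrange
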