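import Mathlib

/-!
# A deterministic walk lemma with a potential

Abstract part of the mean square balancing theorem.
-/

namespace Vale.Agent.P262.Walk

open Finset

variable {H : Type*} [NormedAddCommGroup H] [InnerProductSpace ℝ H]
variable {N : ℕ}

/-- coordinates that are still strictly inside `(-1,1)` -/
noncomputable def frac (x : Fin N → ℝ) : Finset (Fin N) :=
  univ.filter (fun i => |x i| < 1)

lemma mem_frac {x : Fin N → ℝ} {i : Fin N} : i ∈ frac x ↔ |x i| < 1 := by
  simp [frac]

/-- Moving from `x` in a direction supported on the fractional coordinates until the boundary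
of the cube is hit. -/
lemma boundary_move (x u : Fin N → ℝ) (hx : ∀ i, |x i| ≤ 1)
    (hu : ∀ i, i ∉ frac x → u i = 0) (p : Fin N) (hp : u p ≠ 0) :
    ∃ δ : ℝ, 0 ≤ δ ∧ (∀ i, |x i + δ * u i| ≤ 1) ∧
      frac (fun i => x i + δ * u i) ⊂ frac x := by
  classical
  set S : Finset (Fin N) := univ.filter (fun i => u i ≠ 0) with hS
  have hSne : S.Nonempty := ⟨p, by simp [hS, hp]⟩
  set τ : Fin N → ℝ := fun i => (1 - (SignType.sign (u i) : ℝ) * x i) / |u i| with hτ
  obtain ⟨i0, hi0, hmin⟩ := S.exists_min_image τ hSne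
  have hi0u : u i0 ≠ 0 := by simpa [hS] using hi0
  have key : ∀ i, u i ≠ 0 → 0 ≤ τ i ∧ (∀ δ, 0 ≤ δ → δ ≤ τ i → |x i + δ * u i| ≤ 1) ∧
      |x i + τ i * u i| = 1 := by
    intro i hi
    have hxi := abs_le.mp (hx i)
    rcases lt_or_gt_of_ne hi with hneg | hpos
    · have hs : (SignType.sign (u i) : ℝ) = -1 := by simp [sign_neg hneg]
      have habs : |u i| = -u i := abs_of_neg hneg
      have hτi : τ i = (1 + x i) / (-u i) := by
        simp only [hτ, hs, habs]; ring
      have hpos' : 0 < -u i := by linarith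
      refine ⟨?_, ?_, ?_⟩
      · rw [hτi]; apply div_nonneg <;> linarith
      · intro δ h0 h1
        rw [hτi, le_div_iff₀ hpos'] at h1
        rw [abs_le]
        constructor
        · nlinarith
        · nlinarith
      · rw [hτi]
        have : x i + (1 + x i) / (-u i) * u i = -1 := by
          field_simp
          ring
        rw [this]; simp
    · have hs : (SignType.sign (u i) : ℝ) = 1 := by simp [sign_pos hpos]
      have habs : |u i| = u i := abs_of_pos hpos
      have hτi : τ i = (1 - x i) / (u i) := by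
        simp only [hτ, hs, habs]; ring
      refine ⟨?_, ?_, ?_⟩
      · rw [hτi]; apply div_nonneg <;> linarith
      · intro δ h0 h1
        rw [hτi, le_div_iff₀ hpos] at h1
        rw [abs_le]
        constructor
        · nlinarith
        · nlinarith
      · rw [hτi]
        have : x i + (1 - x i) / (u i) * u i = 1 := by
          field_simp
          ring
        rw [this]; simp
  refine ⟨τ i0, (key i0 hi0u).1, ?_, ?_⟩
  · intro i
    by_cases hi : u i = 0
    · simpa [hi] using hx i
    · exact (key i hi).2.1 _ (key i0 hi0u).1 (hmin i (by simp [hS, hi]))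
  · rw [Finset.ssubset_iff_of_subset]
    · refine ⟨i0, ?_, ?_⟩
      · by_contra h
        exact hi0u (hu i0 h)
      · rw [mem_frac]
        have := (key i0 hi0u).2.2
        simp only [this]
        exact lt_irrefl _
    · intro i hi
      rw [mem_frac] at hi
      by_contra h
      have h0 := hu i h
      rw [mem_frac] at h
      simp only [h0, mul_zero, add_zero] at hi
      exact h hi


/-- the potential attached to a fractional point -/
noncomputable def pot (U : Finset (Fin N) → ℝ) (x : Fin N → ℝ) : ℝ :=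
  if h : (frac x).Nonempty then
    (1 - (x ((frac x).min' h)) ^ 2) * U (frac x)
      + (x ((frac x).min' h)) ^ 2 * U ((frac x).erase ((frac x).min' h))
  else U ∅

lemma pot_le (U : Finset (Fin N) → ℝ) (hmono : ∀ A B : Finset (Fin N), A ⊆ B → U A ≤ U B)
    (y : Fin N → ℝ) (hy : ∀ i, |y i| ≤ 1) : pot U y ≤ U (frac y) := by
  unfold pot
  split_ifs with h
  · set q := (frac y).min' h
    have h1 : U ((frac y).erase q) ≤ U (frac y) := hmono _ _ (Finset.erase_subset _ _)
    have h2 : (y q) ^ 2 ≤ 1 := by
      have := hy q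
      rw [← sq_abs]
      nlinarith [abs_nonneg (y q)]
    nlinarith [sq_nonneg (y q)]
  · exact hmono _ _ (Finset.empty_subset _)

theorem walk (w : Fin N → H) (U : Finset (Fin N) → ℝ)
    (hmono : ∀ A B : Finset (Fin N), A ⊆ B → U A ≤ U B)
    (hstep : ∀ (A : Finset (Fin N)) (h : A.Nonempty), ∃ u : Fin N → ℝ,
      (∀ i, i ∉ A → u i = 0) ∧ u (A.min' h) = 1 ∧
      ‖∑ i, u i • w i‖ ^ 2 ≤ U A - U (A.erase (A.min' h))) :
    ∀ (n : ℕ) (x : Fin N → ℝ), (frac x).card = n → (∀ i, |x i| ≤ 1) →
      ∃ ε : Fin N → ℝ, (∀ i, ε i = 1 ∨ ε i = -1) ∧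
        ‖∑ i, ε i • w i‖ ^ 2 + U ∅ ≤ ‖∑ i, x i • w i‖ ^ 2 + pot U x := by
  intro n
  induction n using Nat.strong_induction_on with
  | _ n ih =>
  intro x hcard hx
  by_cases hne : (frac x).Nonempty
  · set A := frac x with hA
    set p := A.min' hne with hp
    have hpA : p ∈ A := Finset.min'_mem _ _
    obtain ⟨u, hu0, hup, hun⟩ := hstep A hne
    replace hup : u p = 1 := hup
    replace hun : ‖∑ i, u i • w i‖ ^ 2 ≤ U A - U (A.erase p) := hun
    set a := U A with ha
    set b := U (A.erase p) with hb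
    have hab : b ≤ a := hmono _ _ (Finset.erase_subset _ _)
    set Bx := ∑ i, x i • w i with hBx
    set Bu := ∑ i, u i • w i with hBu
    set c1 : ℝ := 2 * inner ℝ Bx Bu - 2 * x p * (a - b) with hc1
    obtain ⟨s, hs, hsc⟩ : ∃ s : ℝ, (s = 1 ∨ s = -1) ∧ s * c1 ≤ 0 := by
      by_cases h : c1 ≤ 0
      · exact ⟨1, Or.inl rfl, by linarith⟩
      · exact ⟨-1, Or.inr rfl, by push Not at h; linarith⟩
    have hs2 : s ^ 2 = 1 := by rcases hs with h | h <;> rw [h] <;> norm_num
    have hs0 : s ≠ 0 := by rcases hs with h | h <;> rw [h] <;> norm_num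
    obtain ⟨δ, hδ, hy, hsub⟩ := boundary_move x (fun i => s * u i) hx
      (fun i hi => by simp [hu0 i hi]) p (by simp [hup, hs0])
    set y : Fin N → ℝ := fun i => x i + δ * (s * u i) with hydef
    have hyp : y p = x p + δ * s := by simp [hydef, hup]
    have hBy : ∑ i, y i • w i = Bx + (δ * s) • Bu := by
      simp only [hydef, hBx, hBu, Finset.smul_sum, ← Finset.sum_add_distrib]
      refine Finset.sum_congr rfl (fun i _ => ?_)
      rw [add_smul, smul_smul]
      ring_nf
    have hFy : ‖∑ i, y i • w i‖ ^ 2 = ‖Bx‖ ^ 2 + 2 * (δ * s) * inner ℝ Bx Bu + δ ^ 2 * ‖Bu‖ ^ 2 := by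
      rw [hBy, norm_add_sq_real, inner_smul_right, norm_smul, mul_pow, Real.norm_eq_abs, sq_abs,
        mul_pow, hs2]
      ring
    -- potential of the new point
    have hyp2 : (y p) ^ 2 ≤ 1 := by
      have := hy p
      have h2 : |y p| ≤ 1 := this
      rw [← sq_abs]
      nlinarith [abs_nonneg (y p)]
    have hpoty : pot U y ≤ (1 - (y p) ^ 2) * a + (y p) ^ 2 * b := by
      by_cases hpy : p ∈ frac y
      · have hney : (frac y).Nonempty := ⟨p, hpy⟩
        have hq : (frac y).min' hney = p := by
          apply le_antisymm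
          · exact Finset.min'_le _ _ hpy
          · exact Finset.min'_le _ _ (hsub.1 (Finset.min'_mem _ hney))
        have e : pot U y = (1 - (y p) ^ 2) * U (frac y) + (y p) ^ 2 * U ((frac y).erase p) := by
          unfold pot
          rw [dif_pos hney, hq]
        rw [e]
        have h1 : U (frac y) ≤ a := hmono _ _ hsub.1
        have h2 : U ((frac y).erase p) ≤ b := hmono _ _ (Finset.erase_subset_erase _ hsub.1)
        nlinarith [sq_nonneg (y p)]
      · have h1 : (y p) ^ 2 = 1 := by
          rw [mem_frac] at hpy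
          push Not at hpy
          have h3 : |y p| = 1 := le_antisymm (hy p) hpy
          rw [← sq_abs, h3]; norm_num
        have h2 : pot U y ≤ U (frac y) := pot_le U hmono y hy
        have h3 : U (frac y) ≤ b := by
          apply hmono
          intro i hi
          rw [Finset.mem_erase]
          refine ⟨?_, hsub.1 hi⟩
          rintro rfl
          exact hpy hi
        rw [h1]; linarith
    have hcardy : (frac y).card < n := by
      rw [← hcard]; exact Finset.card_lt_card hsub
    obtain ⟨ε, hε, hle⟩ := ih _ hcardy y rfl hy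
    refine ⟨ε, hε, ?_⟩
    have hpotx : pot U x = (1 - (x p) ^ 2) * a + (x p) ^ 2 * b := by
      unfold pot
      rw [dif_pos hne]
    rw [hpotx]
    have hmain : ‖∑ i, y i • w i‖ ^ 2 + ((1 - (y p) ^ 2) * a + (y p) ^ 2 * b)
        ≤ ‖Bx‖ ^ 2 + ((1 - (x p) ^ 2) * a + (x p) ^ 2 * b) := by
      rw [hFy, hyp]
      have hk : δ ^ 2 * (‖Bu‖ ^ 2 - (a - b)) ≤ 0 := by
        apply mul_nonpos_of_nonneg_of_nonpos (sq_nonneg _)
        linarith
      have hl : δ * (s * c1) ≤ 0 := mul_nonpos_of_nonneg_of_nonpos hδ hsc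
      have hexp : (x p + δ * s) ^ 2 = (x p) ^ 2 + 2 * δ * s * x p + δ ^ 2 := by
        have : (x p + δ * s) ^ 2 = (x p) ^ 2 + 2 * δ * s * x p + δ ^ 2 * s ^ 2 := by ring
        rw [this, hs2]; ring
      rw [hexp]
      simp only [hc1] at hl
      nlinarith
    linarith
  · refine ⟨x, ?_, ?_⟩
    · intro i
      have hi : i ∉ frac x := fun h => hne ⟨i, h⟩
      rw [mem_frac] at hi
      push Not at hi
      have h3 : |x i| = 1 := le_antisymm (hx i) hi
      rcases abs_eq (by norm_num : (0:ℝ) ≤ 1) |>.mp h3 with h | h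
      · exact Or.inl h
      · exact Or.inr h
    · unfold pot
      rw [dif_neg hne]

end Vale.Agent.P262.Walk
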